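import Vale.Agent.P343.H741.Iface

/-! P343, row S: one level of the recursion. -/

set_option linter.all false

namespace Vale.Agent.P343.H264

open Vale.Agent.P343 Vale.Agent.P343.Box Vale.Agent.P343.H741

section Words
variable {Q α : Type}

/-- the box of a word -/
def wd (g : α → NB Q) (w : List α) : NB Q := (w.map g).prod

theorem wd_append (g : α → NB Q) (u v : List α) : wd g (u ++ v) = wd g u * wd g v := by
  unfold wd; rw [List.map_append, List.prod_append]

theorem wd_nil (g : α → NB Q) : wd g [] = 1 := rfl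

theorem wd_singleton (g : α → NB Q) (a : α) : wd g [a] = g a := by simp [wd]

theorem wd_rep (g : α → NB Q) (w : List α) (k : ℕ) : wd g (rep w k) = wd g w ^ k := by
  induction k with
  | zero => rw [pow_zero]; rfl
  | succ k ih => rw [rep, wd_append, ih, pow_succ']

/-- an exponent that makes a box idempotent -/
noncomputable def iE [Finite Q] (x : NB Q) : ℕ := Classical.choose (exists_pow_idem x)

theorem iE_pos [Finite Q] (x : NB Q) : 0 < iE x := (Classical.choose_spec (exists_pow_idem x)).1

theorem iE_idem [Finite Q] (x : NB Q) : x ^ iE x * x ^ iE x = x ^ iE x :=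
  (Classical.choose_spec (exists_pow_idem x)).2

end Words

section Chain
variable {V Q : Type} {n : ℕ} [Finite Q]

/-- the chain of words that starts with the identity letter -/
noncomputable def chN (g : Sym (Ext V n) → NB Q) : ℕ → List (Sym (Ext V n))
  | 0 => [idSym (Ext V n)]
  | c + 1 => rep (chN g c ++ [edgeN V n c] ++ chN g c)
      (iE (wd g (chN g c ++ [edgeN V n c] ++ chN g c)))

theorem chN_zero (g : Sym (Ext V n) → NB Q) : chN g 0 = [idSym (Ext V n)] := rfl

theorem chN_succ (g : Sym (Ext V n) → NB Q) (c : ℕ) :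
    chN g (c + 1) = rep (chN g c ++ [edgeN V n c] ++ chN g c)
      (iE (wd g (chN g c ++ [edgeN V n c] ++ chN g c))) := rfl

/-- the box of the next word as a power -/
theorem wd_chN_succ (g : Sym (Ext V n) → NB Q) (c : ℕ) : ∃ k : ℕ,
    wd g (chN g (c + 1)) =
      (wd g (chN g c) * g (edgeN V n c) * wd g (chN g c)) ^ (k + 1) := by
  have hk := iE_pos (wd g (chN g c ++ [edgeN V n c] ++ chN g c))
  obtain ⟨k, hk'⟩ := Nat.exists_eq_succ_of_ne_zero (Nat.pos_iff_ne_zero.1 hk)
  refine ⟨k, ?_⟩
  rw [chN_succ, wd_rep, hk', wd_append, wd_append, wd_singleton]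

variable {g : Sym (Ext V n) → NB Q}

theorem chN_idem (hid : g (idSym _) * g (idSym _) = g (idSym _)) (c : ℕ) :
    wd g (chN g c) * wd g (chN g c) = wd g (chN g c) := by
  cases c with
  | zero => rw [chN_zero, wd_singleton]; exact hid
  | succ c =>
    rw [chN_succ, wd_rep]
    exact iE_idem _

theorem chN_left (hid : g (idSym _) * g (idSym _) = g (idSym _)) (c : ℕ) :
    wd g (chN g c) * wd g (chN g (c + 1)) = wd g (chN g (c + 1)) := by
  obtain ⟨k, hk⟩ := wd_chN_succ g c
  rw [hk, pow_succ']
  simp only [← mul_assoc]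
  rw [chN_idem hid]

theorem chN_right (hid : g (idSym _) * g (idSym _) = g (idSym _)) (c : ℕ) :
    wd g (chN g (c + 1)) * wd g (chN g c) = wd g (chN g (c + 1)) := by
  obtain ⟨k, hk⟩ := wd_chN_succ g c
  rw [hk, pow_succ]
  simp only [mul_assoc]
  rw [chN_idem hid]

theorem id_left (hid : g (idSym _) * g (idSym _) = g (idSym _)) (c : ℕ) :
    g (idSym _) * wd g (chN g c) = wd g (chN g c) := by
  induction c with
  | zero => rw [chN_zero, wd_singleton]; exact hid
  | succ c ih =>
    rw [← chN_left hid c, ← mul_assoc, ih]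

theorem id_right (hid : g (idSym _) * g (idSym _) = g (idSym _)) (c : ℕ) :
    wd g (chN g c) * g (idSym _) = wd g (chN g c) := by
  induction c with
  | zero => rw [chN_zero, wd_singleton]; exact hid
  | succ c ih =>
    rw [← chN_right hid c, mul_assoc, ih]

theorem acts_chN (g : Sym (Ext V n) → NB Q) (hn : 0 < n) (c : ℕ) (S : Set (Ext V n)) :
    acts (chN g c) S = addE (fun i j => i.val * n + j.val < c) S := by
  induction c generalizing S with
  | zero =>
    rw [chN_zero, acts_cons, acts_nil]
    ext y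
    rw [mem_act]
    simp [addE, idSym]
  | succ c ih =>
    rw [chN_succ]
    apply acts_rep _ _ (iE_pos _)
    intro S
    rw [acts_append, acts_append, ih, ih, acts_cons, acts_nil, act_edgeN, addE_addE, addE_addE]
    apply addE_congr
    intro i j
    have h1 : (i.val = c / n ∧ j.val = c % n) ↔ i.val * n + j.val = c := by
      constructor
      · rintro ⟨h1, h2⟩
        rw [h1, h2]
        have := Nat.div_add_mod c n
        rw [Nat.mul_comm] at this
        exact this
      · intro h
        have hj := j.2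
        constructor
        · rw [← h, Nat.add_comm, Nat.add_mul_div_right _ _ hn, Nat.div_eq_of_lt hj, Nat.zero_add]
        · rw [← h, Nat.add_comm, Nat.add_mul_mod_self_right, Nat.mod_eq_of_lt hj]
    rw [h1]
    omega

/-- powers of a local box -/
theorem X_pow (hP : PtsFacts Q) {e s : NB Q} {d : Bool} {x : Q} (he : e * e = e) (h1 : e * s = s)
    (h2 : s * e = s) (h : X e s d x x) (k : ℕ) : X e (s ^ (k + 1)) d x x := by
  induction k with
  | zero => rw [pow_one]; exact h
  | succ k ih =>
    rw [pow_succ]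
    refine hP.comp he ?_ ?_ h1 h2 ih h
    · rw [pow_succ', ← mul_assoc, h1]
    · rw [pow_succ, mul_assoc, h2]

/-- untouched recurrent states survive in the whole chain -/
theorem X_chN (hP : PtsFacts Q) (hid : g (idSym _) * g (idSym _) = g (idSym _))
    (hl : ∀ s, g (idSym _) * g s = g s) (hr : ∀ s, g s * g (idSym _) = g s) {d : Bool} {x : Q}
    (hx : Pt (g (idSym _)) d x) (hedge : ∀ c, X (g (idSym _)) (g (edgeN V n c)) d x x) (c : ℕ) :
    X (g (idSym _)) (wd g (chN g c)) d x x := by
  induction c with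
  | zero => rw [chN_zero, wd_singleton]; exact hx
  | succ c ih =>
    obtain ⟨k, hk⟩ := wd_chN_succ g c
    rw [hk]
    have h1 := id_left hid (g := g) c
    have h2 := id_right hid (g := g) c
    refine X_pow hP hid ?_ ?_ ?_ k
    · rw [← mul_assoc, ← mul_assoc, h1]
    · rw [mul_assoc, h2]
    · refine hP.comp hid ?_ ?_ h1 h2 (hP.comp hid h1 h2 (hl _) (hr _) ih (hedge c)) ih
      · rw [← mul_assoc, h1]
      · rw [mul_assoc, hr]

end Chain

section Pieces
variable {Q α T' : Type}

theorem pv_append (e f : NB Q) (x : T' → Bool) (L M : List (NB Q ⊕ T')) :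
    pv e f x (L ++ M) = pv e f x L * pv e f x M := by
  unfold pv
  rw [List.map_append, List.prod_append]

theorem pv_map (g : α → NB Q) (L0 L1 : List α) (x : T' → Bool) (C : List (α ⊕ T')) :
    pv (wd g L0) (wd g L1) x (C.map (Sum.map g id)) = wd g (expand L0 L1 x C) := by
  induction C with
  | nil => rfl
  | cons p C ih =>
    have h1 : pv (wd g L0) (wd g L1) x ((p :: C).map (Sum.map g id)) =
        Sum.elim id (fun t => if x t then wd g L1 else wd g L0) (Sum.map g id p) *
          pv (wd g L0) (wd g L1) x (C.map (Sum.map g id)) := by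
      unfold pv
      rw [List.map_cons, List.map_cons, List.prod_cons]
    have h2 : expand L0 L1 x (p :: C) =
        Sum.elim (fun s => [s]) (fun t => if x t then L1 else L0) p ++ expand L0 L1 x C := by
      unfold expand
      rw [List.flatMap_cons]
    rw [h1, h2, wd_append, ih]
    congr 1
    rcases p with s | t
    · exact (wd_singleton g s).symm
    · show (if x t = true then wd g L1 else wd g L0) = wd g (if x t = true then L1 else L0)
      split_ifs <;> rfl

theorem countP_map_isT (g : α → NB Q) (C : List (α ⊕ T')) (t : T') :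
    (C.map (Sum.map g id)).countP (isT t) = C.countP (isT t) := by
  rw [List.countP_map]
  congr 1
  funext p
  rcases p with s | t' <;> rfl

end Pieces

/-- the number of classes of a union -/
theorem ncard_U_le {Q : Type} [Finite Q] {n a : ℕ} (A B : Fin n → Set (Bool × Set Q))
    (hA : ∀ i, (A i).ncard ≤ a) (hB : ∀ i, (B i).ncard ≤ a) :
    (⋃ i, (A i ∪ B i)).ncard ≤ n * (2 * a) := by
  classical
  have hfin : ∀ s : Set (Bool × Set Q), s.Finite := fun s => Set.toFinite s
  have key : ∀ s : Finset (Fin n), (⋃ i ∈ s, (A i ∪ B i)).ncard ≤ s.card * (2 * a) := by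
    intro s
    induction s using Finset.induction_on with
    | empty => simp
    | insert i s hi ih =>
      rw [Finset.set_biUnion_insert, Finset.card_insert_of_notMem hi]
      refine (Set.ncard_union_le _ _).trans ?_
      have h1 := Set.ncard_union_le (A i) (B i)
      have h2 := hA i
      have h3 := hB i
      have h4 : (s.card + 1) * (2 * a) = s.card * (2 * a) + 2 * a := by ring
      omega
  have h := key Finset.univ
  simpa using h

/-- **one level of the recursion** -/
theorem step (hP : ∀ (Q : Type) [Finite Q], PtsFacts Q) (hC : CountStmt) (hT : ToggleStmt) :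
    StepStmt := by
  intro V _ s0 f0 n hn Q _ M hM a hNorm
  classical
  obtain ⟨hid, hl, hr, Act, hAct, hX⟩ := hNorm
  have PQ := hP Q
  set g := M.G with hg
  set e0 := g (idSym (Ext V n)) with he0
  -- the touched classes
  set U : Set (Bool × Set Q) :=
    ⋃ i : Fin n, (Act (false, trkW V i) ∪ Act (true, trkP V i)) with hU
  have hUcard : U.ncard ≤ n * (2 * a) :=
    ncard_U_le _ _ (fun i => hAct (false, trkW V i)) (fun i => hAct (true, trkP V i))
  have hfin : ∀ s : Set (Bool × Set Q), s.Finite := fun s => Set.toFinite s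
  -- untouched states survive the letters of the chain
  have hedge : ∀ d x, Pt e0 d x → (d, cl e0 d x) ∉ U → ∀ c, X e0 (g (edgeN V n c)) d x x := by
    intro d x hx hxU c
    refine hX (edgeN V n c) (fun _ => rfl) d x hx ?_ ?_
    · intro v hv hmem
      obtain ⟨i, rfl, _⟩ := isW_iff.1 hv
      exact hxU (Set.mem_iUnion.2 ⟨i, Or.inl hmem⟩)
    · intro v hv hmem
      obtain ⟨i, rfl, _⟩ := isP_iff.1 hv
      exact hxU (Set.mem_iUnion.2 ⟨i, Or.inr hmem⟩)
  set E : ℕ → NB Q := fun c => wd g (chN g c) with hE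
  have hEi : ∀ c, E c * E c = E c := fun c => chN_idem hid c
  have hEl : ∀ c, E c * E (c + 1) = E (c + 1) := fun c => chN_left hid c
  have hEr : ∀ c, E (c + 1) * E c = E (c + 1) := fun c => chN_right hid c
  have hlost : ∀ c, Lost (E c) (E (c + 1)) ⊆ UC e0 U (E c) := by
    rintro c ⟨d, K⟩ ⟨x, hx, hK, hnx⟩
    refine ⟨⟨x, hx, hK⟩, ?_⟩
    intro y hy hy0
    by_contra hyU
    apply hnx
    simp only at hK hx hy hy0 hyU ⊢
    rw [hK] at hy
    obtain ⟨hxy, hyx⟩ := hy
    have h1 : X e0 (E (c + 1)) d y y :=
      X_chN PQ hid hl hr hy0 (hedge d y hy0 hyU) (c + 1)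
    have h2 : X (E c) (E (c + 1)) d y y := PQ.env (id_left hid c) (id_right hid c) h1
    have h3 := PQ.invL (hEi c) (hEl c) (hEr c) hxy h2
    exact PQ.invR (hEi c) (hEl c) (hEr c) h3 hyx
  have hcount : ∀ c, 2 * (UC e0 U (E (c + 1))).ncard + (Lost (E c) (E (c + 1))).ncard ≤
      2 * (UC e0 U (E c)).ncard := fun c =>
    hC Q e0 (E c) (E (c + 1)) U (hEi c) (hEi (c + 1)) (hEl c) (hEr c) (hlost c)
  have hUC0 : (UC e0 U (E 0)).ncard ≤ U.ncard := by
    refine Set.ncard_le_ncard ?_ (hfin _)
    rintro ⟨d, K⟩ ⟨⟨x, hx, hK⟩, h2⟩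
    have hE0 : E 0 = e0 := by
      show wd g (chN g 0) = e0
      rw [chN_zero, wd_singleton]
    rw [hE0] at hx hK
    simp only at hx hK h2
    have h3 := h2 x (by rw [hK]; exact ⟨hx, hx⟩) hx
    rw [hK]
    exact h3
  obtain ⟨c, hc, hdrop⟩ := row_select (m := n * n) (Nat.mul_pos hn hn)
    (fun c => 2 * (UC e0 U (E c)).ncard) (fun c => by have := hcount c; omega)
  have hi : c / n < n := Nat.div_lt_of_lt_mul hc
  have hj : c % n < n := Nat.mod_lt _ hn
  have hcn : c / n * n + c % n = c := by
    have := Nat.div_add_mod c n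
    rwa [Nat.mul_comm] at this
  have hlostc : n * (Lost (E c) (E (c + 1))).ncard ≤ 4 * a := by
    have h1 : n * n * (Lost (E c) (E (c + 1))).ncard ≤ 2 * (n * (2 * a)) := by
      have h2 : n * n * (Lost (E c) (E (c + 1))).ncard ≤
          n * n * (2 * (UC e0 U (E c)).ncard - 2 * (UC e0 U (E (c + 1))).ncard) := by
        apply Nat.mul_le_mul_left
        have := hcount c
        omega
      have h3 : 2 * (UC e0 U (E 0)).ncard ≤ 2 * (n * (2 * a)) := by omega
      exact h2.trans (hdrop.trans h3)
    have h2 : n * (n * (Lost (E c) (E (c + 1))).ncard) ≤ n * (4 * a) := by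
      calc n * (n * (Lost (E c) (E (c + 1))).ncard)
          = n * n * (Lost (E c) (E (c + 1))).ncard := by ring
        _ ≤ 2 * (n * (2 * a)) := h1
        _ = n * (4 * a) := by ring
    exact Nat.le_of_mul_le_mul_left h2 hn
  -- the cells
  set L0 := chN g c with hL0
  set L1 := chN g (c + 1) with hL1
  set C := cellP (V := V) (n := n) ⟨c / n, hi⟩ ⟨c % n, hj⟩ Finset.univ.toList with hCdef
  have hCT : ∀ t, C.countP (isT t) = 1 := fun t =>
    countP_isT_cellP _ _ _ (Finset.nodup_toList _)
      (fun v => Finset.mem_toList.2 (Finset.mem_univ v)) t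
  have hact : ∀ (s : Sym V) (A : Set V),
      acts (expand L0 L1 (bits s) C) (Sum.inl '' A) = Sum.inl '' (s.act A) := by
    intro s A
    apply acts_cellP (P0 := fun i j => i.val * n + j.val < c)
      (P1 := fun i j => i.val * n + j.val < c + 1)
      (fun S => acts_chN g hn c S) (fun S => acts_chN g hn (c + 1) S)
    · simp only [hcn]; omega
    · simp only [hcn]; omega
    · intro v
      exact Finset.mem_toList.2 (Finset.mem_univ v)
  let w : Sym V → List (Sym (Ext V n)) := fun s => expand L0 L1 (bits s) C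
  let w0 := w (idSym V)
  set x := wd g w0 with hx
  obtain ⟨k, hk, hidem⟩ := exists_pow_idem x
  let m : Sym V → List (Sym (Ext V n)) := fun s => rep w0 k ++ w s ++ rep w0 (2 * k - 1)
  have hm : ∀ s, wd g (m s) = x ^ k * wd g (w s) * x ^ (2 * k - 1) := by
    intro s
    show wd g (rep w0 k ++ w s ++ rep w0 (2 * k - 1)) = _
    rw [wd_append, wd_append, wd_rep, wd_rep]
  have h3k : x ^ k * x * x ^ (2 * k - 1) = x ^ k := by
    rw [← pow_succ, ← pow_add]
    have : k + 1 + (2 * k - 1) = k + k + k := by omega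
    rw [this, pow_add, pow_add, hidem, hidem]
  have hmid : wd g (m (idSym V)) = x ^ k := by
    rw [hm]
    exact h3k
  have hml : ∀ s, x ^ k * wd g (m s) = wd g (m s) := by
    intro s
    rw [hm, ← mul_assoc, ← mul_assoc, hidem]
  have hmr : ∀ s, wd g (m s) * x ^ k = wd g (m s) := by
    intro s
    rw [hm, mul_assoc]
    congr 1
    have : 2 * k - 1 = (k - 1) + k := by omega
    rw [this, pow_add, mul_assoc, hidem]
  have hact0 : ∀ S : Set V, acts w0 (Sum.inl '' S) = Sum.inl '' S := by
    intro S
    show acts (expand L0 L1 (bits (idSym V)) C) (Sum.inl '' S) = Sum.inl '' S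
    rw [hact, idSym_act]
  have hactm : ∀ (s : Sym V) (S : Set V),
      acts (m s) (Sum.inl '' S) = (Sum.inl '' (s.act S) : Set (Ext V n)) := by
    intro s S
    show acts (rep w0 k ++ w s ++ rep w0 (2 * k - 1)) (Sum.inl '' S) = _
    rw [acts_append, acts_append, acts_rep1 _ _ hact0]
    show acts (rep w0 (2 * k - 1)) (acts (expand L0 L1 (bits s) C) (Sum.inl '' S)) = _
    rw [hact, acts_rep1 _ _ hact0]
  -- the list of pieces
  let L : List (NB Q ⊕ (Fin 3 × V)) :=
    [Sum.inl (x ^ k)] ++ C.map (Sum.map g id) ++ [Sum.inl (x ^ (2 * k - 1))]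
  have hLpv : ∀ s : Sym V, pv (E c) (E (c + 1)) (bits s) L = wd g (m s) := by
    intro s
    show pv (E c) (E (c + 1)) (bits s)
      ([Sum.inl (x ^ k)] ++ C.map (Sum.map g id) ++ [Sum.inl (x ^ (2 * k - 1))]) = _
    rw [pv_append, pv_append, hm]
    have h1 : pv (E c) (E (c + 1)) (bits s) [Sum.inl (x ^ k)] = x ^ k := by simp [pv]
    have h2 : pv (E c) (E (c + 1)) (bits s) [Sum.inl (x ^ (2 * k - 1))] = x ^ (2 * k - 1) := by
      simp [pv]
    have h3 : pv (E c) (E (c + 1)) (bits s) (C.map (Sum.map g id)) = wd g (w s) :=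
      pv_map g L0 L1 (bits s) C
    rw [h1, h2, h3]
  have hLcount : ∀ t, L.countP (isT t) ≤ 1 := by
    intro t
    show ([Sum.inl (x ^ k)] ++ C.map (Sum.map g id) ++ [Sum.inl (x ^ (2 * k - 1))] :
      List (NB Q ⊕ (Fin 3 × V))).countP (isT t) ≤ 1
    rw [List.countP_append, List.countP_append, countP_map_isT, hCT]
    simp [isT]
  obtain ⟨Act', hAct', hX'⟩ := hT Q (Fin 3 × V) (E c) (E (c + 1)) L (bits (idSym V)) (hEi c)
    (hEi (c + 1)) (hEl c) (hEr c) (by simp [L]) (by rw [hLpv, hmid]; exact hidem)
    (fun t _ => hLcount t)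
  rw [hLpv, hmid] at hX'
  -- the new automaton
  refine ⟨⟨fun s => wd g (m s), M.bl, M.br, M.start, M.fin⟩,
    2 * (Lost (E c) (E (c + 1))).ncard, ⟨?_, ?_, ?_, fun p => Act' (if p.1 then 1 else 0, p.2),
      ?_, ?_⟩, ?_, ?_⟩
  · show wd g (m (idSym V)) * wd g (m (idSym V)) = wd g (m (idSym V))
    rw [hmid]; exact hidem
  · intro s
    show wd g (m (idSym V)) * wd g (m s) = wd g (m s)
    rw [hmid]; exact hml s
  · intro s
    show wd g (m s) * wd g (m (idSym V)) = wd g (m s)
    rw [hmid]; exact hmr s
  · rintro ⟨b, v⟩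
    refine hAct' _ ?_
    rw [bits_idSym]
    cases b <;> simp
  · intro s hkeep d y hy hsrc hdst
    show X (wd g (m (idSym V))) (wd g (m s)) d y y
    have hy' : Pt (wd g (m (idSym V))) d y := hy
    have hsrc' : ∀ v, s.src v = true → (d, cl (wd g (m (idSym V))) d y) ∉ Act' (0, v) :=
      fun v hv => by simpa using hsrc v hv
    have hdst' : ∀ v, s.dst v = true → (d, cl (wd g (m (idSym V))) d y) ∉ Act' (1, v) :=
      fun v hv => by simpa using hdst v hv
    rw [hmid] at hy' hsrc' hdst' ⊢
    rw [← hLpv]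
    refine hX' (bits s) ?_ d y hy' ?_
    · rintro ⟨i, v⟩ ht
      rw [bits_idSym] at ht
      have h2 : i ≠ 0 ∧ i ≠ 1 := by simpa using ht
      unfold bits
      simp only [h2.1, h2.2, if_false]
      exact hkeep v
    · rintro ⟨i, v⟩ ht hb
      rw [bits_idSym] at ht
      have h2 : ¬ (i ≠ 0 ∧ i ≠ 1) := by simpa using ht
      by_cases h0 : i = 0
      · subst h0
        exact hsrc' v (by simpa [bits] using hb)
      · have h1 : i = 1 := by
          by_contra h1
          exact h2 ⟨h0, h1⟩
        subst h1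
        exact hdst' v (by simpa [bits] using hb)
  · have : n * (2 * (Lost (E c) (E (c + 1))).ncard) = 2 * (n * (Lost (E c) (E (c + 1))).ncard) := by
      ring
    rw [this]
    omega
  · intro ws
    have h1 : (ws.map fun s => wd g (m s)).prod = wd g (ws.flatMap m) := by
      induction ws with
      | nil => rfl
      | cons s ws ih =>
        rw [List.map_cons, List.prod_cons, ih, List.flatMap_cons]
        exact (wd_append g (m s) (ws.flatMap m)).symm
    have h2 : (⟨fun s => wd g (m s), M.bl, M.br, M.start, M.fin⟩ : BAut (Sym V) Q).Acc ws ↔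
        M.Acc (ws.flatMap m) := by
      unfold BAut.Acc
      rw [h1]
      rfl
    rw [h2, hM]
    have h3 : ∀ (ws : List (Sym V)) (S : Set V),
        acts (ws.flatMap m) (Sum.inl '' S) = (Sum.inl '' (acts ws S) : Set (Ext V n)) := by
      intro ws
      induction ws with
      | nil => intro S; rfl
      | cons s ws ih =>
        intro S
        rw [List.flatMap_cons, acts_append, hactm, ih]
        rfl
    unfold RLang
    rw [← Set.image_singleton, h3]
    exact not_congr Sum.inl_injective.mem_set_image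

end Vale.Agent.P343.H264
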