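import Vale.Agent.P343.H741.Iface

/-! P343, row G: toggles. -/

set_option linter.all false

namespace Vale.Agent.P343.H264

open Vale.Agent.P343 Vale.Agent.P343.Box Vale.Agent.P343.H741 Relation

variable {Q T' : Type}

theorem uniq_of_countP {A : Type} (p : A → Bool) : ∀ (L : List A), L.countP p ≤ 1 →
    ∀ (i j : ℕ) (a b : A), L[i]? = some a → L[j]? = some b → p a = true → p b = true → i = j := by
  intro L
  induction L with
  | nil => intro _ i j a b h; simp at h
  | cons c L ih =>
    intro h i j a b hi hj ha hb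
    rw [List.countP_cons] at h
    have key : ∀ (j : ℕ) (b : A), p c = true → L[j]? = some b → p b = true → False := by
      intro j b hc hj hb
      rw [if_pos hc] at h
      have h0 : L.countP p = 0 := by omega
      rw [List.countP_eq_zero] at h0
      exact h0 b (List.mem_of_getElem? hj) hb
    cases i with
    | zero =>
      cases j with
      | zero => rfl
      | succ j =>
        simp only [List.getElem?_cons_zero, Option.some.injEq, List.getElem?_cons_succ] at hi hj
        subst hi
        exact (key j b ha hj hb).elim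
    | succ i =>
      cases j with
      | zero =>
        simp only [List.getElem?_cons_zero, Option.some.injEq, List.getElem?_cons_succ] at hi hj
        subst hj
        exact (key i a hb hi ha).elim
      | succ j =>
        simp only [List.getElem?_cons_succ] at hi hj
        rw [ih (by omega) i j a b hi hj ha hb]

/-- the box of a piece -/
def bx (e f : NB Q) (x : T' → Bool) : NB Q ⊕ T' → NB Q :=
  Sum.elim id (fun t => if x t then f else e)

theorem pv_eq (e f : NB Q) (x : T' → Bool) (L : List (NB Q ⊕ T')) :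
    pv e f x L = (L.map (bx e f x)).prod := rfl

/-- the chain of the pieces between two boxes `E` -/
def chn (E e f : NB Q) (x : T' → Bool) (L : List (NB Q ⊕ T')) : ℕ → NB Q :=
  lch (E :: (L.map (bx e f x) ++ [E]))

theorem chn_zero (E e f : NB Q) (x : T' → Bool) (L : List (NB Q ⊕ T')) :
    chn E e f x L 0 = E := by simp [chn, lch]

theorem chn_mid (E e f : NB Q) (x : T' → Bool) (L : List (NB Q ⊕ T')) {j : ℕ} {p : NB Q ⊕ T'}
    (h : L[j]? = some p) : chn E e f x L (j + 1) = bx e f x p := by
  have hj : j < L.length := by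
    by_contra hcon
    rw [List.getElem?_eq_none (by omega)] at h
    simp at h
  unfold chn lch
  rw [List.getElem?_cons_succ, List.getElem?_append_left (by rw [List.length_map]; exact hj),
    List.getElem?_map, h]
  rfl

theorem chn_last (E e f : NB Q) (x : T' → Bool) (L : List (NB Q ⊕ T')) :
    chn E e f x L (L.length + 1) = E := by
  unfold chn lch
  rw [List.getElem?_cons_succ, List.getElem?_append_right (by rw [List.length_map])]
  simp

/-- where the two chains differ -/
theorem chn_cases (E e f : NB Q) {x0 x : T' → Bool} (hx : ∀ t, x0 t = true → x t = true)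
    (L : List (NB Q ⊕ T')) {i : ℕ} (hi : i < L.length + 2) :
    chn E e f x0 L i = chn E e f x L i ∨ ∃ (j : ℕ) (t : T'), i = j + 1 ∧ L[j]? = some (Sum.inr t) ∧
      x0 t = false ∧ x t = true ∧ chn E e f x0 L i = e ∧ chn E e f x L i = f := by
  rcases Nat.eq_zero_or_pos i with h0 | h0
  · subst h0
    exact Or.inl (by rw [chn_zero, chn_zero])
  obtain ⟨j, rfl⟩ := Nat.exists_eq_succ_of_ne_zero (Nat.pos_iff_ne_zero.1 h0)
  by_cases hj : j < L.length
  · have hp : L[j]? = some L[j] := List.getElem?_eq_getElem hj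
    rcases hL : L[j] with b | t
    · left
      rw [hL] at hp
      show chn E e f x0 L (j + 1) = chn E e f x L (j + 1)
      rw [chn_mid E e f x0 L hp, chn_mid E e f x L hp]
      rfl
    · rw [hL] at hp
      have e0 := chn_mid E e f x0 L hp
      have e1 := chn_mid E e f x L hp
      by_cases h1 : x0 t = true
      · left
        show chn E e f x0 L (j + 1) = chn E e f x L (j + 1)
        rw [e0, e1]
        simp [bx, h1, hx t h1]
      · have h1' : x0 t = false := by simpa using h1
        by_cases h2 : x t = true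
        · refine Or.inr ⟨j, t, rfl, hp, h1', h2, ?_, ?_⟩
          · show chn E e f x0 L (j + 1) = e
            rw [e0]; simp [bx, h1']
          · show chn E e f x L (j + 1) = f
            rw [e1]; simp [bx, h2]
        · have h2' : x t = false := by simpa using h2
          left
          show chn E e f x0 L (j + 1) = chn E e f x L (j + 1)
          rw [e0, e1]
          simp [bx, h1', h2']
  · left
    have : j = L.length := by omega
    subst this
    show chn E e f x0 L (L.length + 1) = chn E e f x L (L.length + 1)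
    rw [chn_last, chn_last]

/-- a run from `s` to `s'` that passes through the toggle number `j` in the direction `d` through
the recurrent state `z` -/
def Cut (c : ℕ → NB Q) (N : ℕ) (e : NB Q) (j : ℕ) (d : Bool) (z : Q) (s s' : ℕ × (Bool × Q)) :
    Prop :=
  ∃ a b, Rn c 0 N s (ent (j + 1) (j + 2) d, (d, a)) ∧ Via e d a b z ∧
    Rn c 0 N (ext (j + 1) (j + 2) d, (d, b)) s'

/-- the toggle lemma -/
theorem toggle_run (hP : PtsFacts Q) {E e f : NB Q} (he : e * e = e) (hef : e * f = f)
    (hfe : f * e = f) {x0 x : T' → Bool} (hx : ∀ t, x0 t = true → x t = true)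
    (L : List (NB Q ⊕ T')) {s s' : ℕ × (Bool × Q)}
    (h : Rn (chn E e f x0 L) 0 (L.length + 2) s s') :
    Rn (chn E e f x L) 0 (L.length + 2) s s' ∨ ∃ (j : ℕ) (t : T') (d : Bool) (z : Q),
      L[j]? = some (Sum.inr t) ∧ x0 t = false ∧ x t = true ∧ Pt e d z ∧ ¬ X e f d z z ∧
      Cut (chn E e f x0 L) (L.length + 2) e j d z s s' := by
  unfold Rn at h
  induction h with
  | refl => exact Or.inl ReflTransGen.refl
  | tail h1 h2 ih =>
    rename_i m s'
    rcases ih with ih | ⟨j, t, d, z, g1, g2, g3, g4, g5, a, b, g6, g7, g8⟩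
    · cases h2 with
      | mk i k k' hlo hhi hb =>
        rcases chn_cases E e f hx L hhi with heq | ⟨j, t, rfl, g1, g2, g3, g4, g5⟩
        · left
          rw [heq] at hb
          exact ReflTransGen.tail ih (St.mk i k k' hlo hhi hb)
        · rw [g4] at hb
          by_cases hd : k.1 = k'.1
          · obtain ⟨d, a⟩ := k
            obtain ⟨d', b⟩ := k'
            simp only at hd
            subst hd
            obtain ⟨z, hz, hvia⟩ := hP.via1 he hb
            by_cases hX : X e f d z z
            · left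
              have hf := hP.via2 he hef hfe hvia hX
              rw [← g5] at hf
              exact ReflTransGen.tail ih (St.mk (j + 1) _ _ hlo hhi hf)
            · right
              exact ⟨j, t, d, z, g1, g2, g3, hz, hX, a, b, h1, hvia, ReflTransGen.refl⟩
          · left
            have hf := hP.bounce hef hfe hd hb
            rw [← g5] at hf
            exact ReflTransGen.tail ih (St.mk (j + 1) _ _ hlo hhi hf)
    · right
      exact ⟨j, t, d, z, g1, g2, g3, g4, g5, a, b, g6, g7, ReflTransGen.tail g8 h2⟩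

theorem cl_eq (hP : PtsFacts Q) {E : NB Q} (hE : E * E = E) {D : Bool} {y y' : Q}
    (h1 : T E D y y') (h2 : T E D y' y) : cl E D y = cl E D y' := by
  ext w
  constructor
  · rintro ⟨h3, h4⟩
    exact ⟨hP.trans hE h2 h3, hP.trans hE h4 h1⟩
  · rintro ⟨h3, h4⟩
    exact ⟨hP.trans hE h1 h3, hP.trans hE h4 h2⟩

/-- **row G** -/
theorem toggle (hA : ∀ (Q : Type), AlgFacts Q) (hP : ∀ (Q : Type) [Finite Q], PtsFacts Q) :
    ToggleStmt := by
  intro Q T' _ e f L x0 he hf hef hfe hL hE hcount
  classical
  have PQ := hP Q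
  have AQ := hA Q
  set E := pv e f x0 L with hEdef
  set n := L.length with hn
  have hMne : ∀ x : T' → Bool, L.map (bx e f x) ≠ [] := by
    intro x h
    exact hL (List.map_eq_nil_iff.1 h)
  -- crossings as runs
  have hrun : ∀ (x : T' → Bool) (D : Bool) (y y' : Q), X E (pv e f x L) D y y' ↔
      Rn (chn E e f x L) 0 (n + 2) (ent 1 (n + 1) D, (D, y)) (ext 1 (n + 1) D, (D, y')) := by
    intro x D y y'
    have h := AQ.list (l := E) (r := E) (M := L.map (bx e f x)) (d := D) (x := y) (y := y')
      (hMne x)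
    rw [List.length_map] at h
    exact h
  have hrun0 : ∀ (D : Bool) (y y' : Q), T E D y y' ↔
      Rn (chn E e f x0 L) 0 (n + 2) (ent 1 (n + 1) D, (D, y)) (ext 1 (n + 1) D, (D, y')) :=
    fun D y y' => hrun x0 D y y'
  let R : T' → Bool → Q → Bool → Q → Prop := fun t D y d z =>
    ∃ j, L[j]? = some (Sum.inr t) ∧ Pt e d z ∧ ¬ X e f d z z ∧
      Cut (chn E e f x0 L) (n + 2) e j d z (ent 1 (n + 1) D, (D, y)) (ext 1 (n + 1) D, (D, y))
  refine ⟨fun t => {κ | ∃ y d z, κ.2 = cl E κ.1 y ∧ R t κ.1 y d z}, ?_, ?_⟩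
  · intro t ht
    -- the injection
    have hch : ∀ κ : Bool × Set Q, (∃ y d z, κ.2 = cl E κ.1 y ∧ R t κ.1 y d z) →
        ∃ w : Q × (Bool × Q), κ.2 = cl E κ.1 w.1 ∧ R t κ.1 w.1 w.2.1 w.2.2 := by
      rintro κ ⟨y, d, z, h1, h2⟩
      exact ⟨(y, (d, z)), h1, h2⟩
    let F : Bool × Set Q → Bool × (Bool × Set Q) := fun κ =>
      if h : ∃ w : Q × (Bool × Q), κ.2 = cl E κ.1 w.1 ∧ R t κ.1 w.1 w.2.1 w.2.2 then
        (κ.1, (h.choose.2.1, cl e h.choose.2.1 h.choose.2.2)) else (κ.1, κ)
    have hF : ∀ κ ∈ {κ : Bool × Set Q | ∃ y d z, κ.2 = cl E κ.1 y ∧ R t κ.1 y d z},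
        ∃ w : Q × (Bool × Q), κ.2 = cl E κ.1 w.1 ∧ R t κ.1 w.1 w.2.1 w.2.2 ∧
          F κ = (κ.1, (w.2.1, cl e w.2.1 w.2.2)) := by
      intro κ hκ
      have h := hch κ hκ
      refine ⟨h.choose, h.choose_spec.1, h.choose_spec.2, ?_⟩
      simp only [F]
      rw [dif_pos h]
    have hprod : ((Set.univ : Set Bool) ×ˢ Lost e f).ncard = 2 * (Lost e f).ncard := by
      rw [Set.ncard_prod, Set.ncard_univ]
      simp
    rw [← hprod]
    refine Set.ncard_le_ncard_of_injOn F ?_ ?_ (Set.toFinite _)
    · intro κ hκ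
      obtain ⟨w, h1, ⟨j, h2, h3, h4, h5⟩, h6⟩ := hF κ hκ
      rw [h6]
      exact ⟨Set.mem_univ _, ⟨w.2.2, h3, rfl, h4⟩⟩
    · intro κ hκ κ' hκ' heq
      obtain ⟨⟨y, d, z⟩, h1, ⟨j, h2, h3, h4, a, b, h5, h6, h7⟩, h8⟩ := hF κ hκ
      obtain ⟨⟨y', d', z'⟩, g1, ⟨j', g2, g3, g4, a', b', g5, g6, g7⟩, g8⟩ := hF κ' hκ'
      rw [h8, g8] at heq
      obtain ⟨D, K⟩ := κ
      obtain ⟨D', K'⟩ := κ'
      simp only [Prod.mk.injEq] at heq h1 g1 h2 g2 h3 g3 h4 g4 h5 g5 h6 g6 h7 g7 ⊢
      obtain ⟨hD, hd, hz⟩ := heq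
      subst hD
      subst hd
      refine ⟨rfl, ?_⟩
      rw [h1, g1]
      -- the same position
      have hjj : j = j' := uniq_of_countP (isT t) L (hcount t ht) j j' _ _ h2 g2
        (isT_iff.2 rfl) (isT_iff.2 rfl)
      subst hjj
      have hzz : T e d z z' ∧ T e d z' z := by
        have : z' ∈ cl e d z := by rw [hz]; exact ⟨g3, g3⟩
        exact this
      have hj : j < n := by
        by_contra hcon
        rw [List.getElem?_eq_none (by omega)] at h2
        simp at h2
      have hbox : chn E e f x0 L (j + 1) = e := by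
        rw [chn_mid E e f x0 L h2]
        simp [bx, ht]
      have switch : ∀ {a b a' b' z z' y y'}, Via e d a b z → Via e d a' b' z' → T e d z z' →
          Rn (chn E e f x0 L) 0 (n + 2) (ent 1 (n + 1) D, (D, y)) (ent (j + 1) (j + 2) d, (d, a)) →
          Rn (chn E e f x0 L) 0 (n + 2) (ext (j + 1) (j + 2) d, (d, b'))
            (ext 1 (n + 1) D, (D, y')) → T E D y y' := by
        intro a b a' b' z z' y y' v1 v2 v3 r1 r2
        rw [hrun0]
        have h9 : e (d, a) (d, b') := PQ.via3 he v1 v2 v3
        rw [← hbox] at h9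
        exact Rn.trans r1 (ReflTransGen.head (St.mk (j + 1) (d, a) (d, b') (by omega) (by omega) h9)
          r2)
      exact cl_eq PQ hE (switch h6 g6 hzz.1 h5 g7) (switch g6 h6 hzz.2 g5 h7)
  · intro x hx D y hy hAct
    rw [hrun]
    have h0 := (hrun0 D y y).1 hy
    rcases toggle_run PQ he hef hfe hx L h0 with h | ⟨j, t, d, z, g1, g2, g3, g4, g5, g6⟩
    · exact h
    · exfalso
      exact hAct t g2 g3 ⟨y, d, z, rfl, j, g1, g4, g5, g6⟩

end Vale.Agent.P343.H264
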